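import Vale.Agent.P219W.Len

/-!
# P219W: metric completeness implies geodesic completeness
-/

open scoped Manifold ContDiff ENNReal Topology
open Set Filter

set_option linter.all false

noncomputable section

namespace Vale.Agent.P219W88

open Vale.Agent.P255 (RMetric IsGeo curveIn coefIn)
open Vale.Agent.P219.Co (E)
open Vale.Agent.P219.RG
open Vale.Agent.P219W

section General

variable {V : Type} [NormedAddCommGroup V] [NormedSpace ℝ V] [FiniteDimensional ℝ V]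
variable {M : Type} [TopologicalSpace M] [ChartedSpace V M] [IsManifold 𝓘(ℝ, V) ∞ M] [T2Space M]
variable {g : Metric V M}

/-- slow geodesics on bounded intervals extend to the right -/
def Ext (g : Metric V M) : Prop := ∀ (γ : ℝ → M) (a b : ℝ), a < b → IsGeodesicOn g γ (Ioo a b) →
  (∀ t ∈ Ioo a b, g.sp γ t ≤ 1) →
  ∃ δ > 0, ∃ γ' : ℝ → M, IsGeodesicOn g γ' (Ioo a (b + δ)) ∧ EqOn γ' γ (Ioo a b)

theorem glue {γ σ : ℝ → M} {a b t1 ε : ℝ} (hγ : IsGeodesicOn g γ (Ioo a b)) (h1 : a < t1)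
    (h2 : t1 < b) (h3 : b ≤ t1 + ε) (hσ : IsGeodesicOn g σ (Ioo (-ε) ε))
    (hσs : StartsAt σ (γ t1) (deriv (cc (E := V) γ (γ t1)) t1)) :
    ∃ γ' : ℝ → M, IsGeodesicOn g γ' (Ioo a (t1 + ε)) ∧ EqOn γ' γ (Ioo a b) := by
  obtain ⟨hσ0, hσ1⟩ := hσs
  have hm1 : γ t1 ∈ (chartAt V (γ t1)).source := mem_chart_source V _
  set σ1 : ℝ → M := fun t => σ (1 * t + (-t1)) with hσ1def
  have hσ1g : IsGeodesicOn g σ1 (Ioo (t1 - ε) (t1 + ε)) := by
    refine (hσ.comp_affine isOpen_Ioo 1 (-t1)).mono ?_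
    intro t ht
    simp only [mem_ofPred_eq, mem_Ioo] at ht ⊢
    constructor <;> linarith only [ht]
  have e0 : σ1 t1 = γ t1 := by simp [hσ1def, hσ0]
  have hd : deriv (cc (E := V) σ1 (γ t1)) t1 = deriv (cc (E := V) γ (γ t1)) t1 := by
    have hh : HasDerivAt (fun t : ℝ => 1 * t + (-t1)) 1 t1 := by
      simpa using ((hasDerivAt_id t1).const_mul (1 : ℝ)).add_const (-t1)
    have hz : (1 : ℝ) * t1 + (-t1) = 0 := by ring
    have hσ1' : HasDerivAt (cc (E := V) σ (γ t1)) (deriv (cc (E := V) γ (γ t1)) t1)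
        (1 * t1 + (-t1)) := by rw [hz]; exact hσ1
    have := HasDerivAt.scomp (h := fun t : ℝ => 1 * t + (-t1)) t1 hσ1' hh
    rw [one_smul] at this
    exact this.deriv
  have hover : EqOn γ σ1 (Ioo (max a (t1 - ε)) b) := by
    have hsub1 : Ioo (max a (t1 - ε)) b ⊆ Ioo a b := Ioo_subset_Ioo (le_max_left _ _) le_rfl
    have hsub2 : Ioo (max a (t1 - ε)) b ⊆ Ioo (t1 - ε) (t1 + ε) :=
      Ioo_subset_Ioo (le_max_right _ _) h3
    exact (hγ.mono hsub1).eqOn_of (hσ1g.mono hsub2) isOpen_Ioo isPreconnected_Ioo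
      (t := t1) ⟨max_lt h1 (by linarith only [h2, h3]), h2⟩ e0.symm hm1 hd.symm
  refine ⟨fun t => if t < b then γ t else σ1 t, ?_, ?_⟩
  · have hA : IsGeodesicOn g (fun t => if t < b then γ t else σ1 t) (Ioo a b) :=
      hγ.congr isOpen_Ioo (fun t ht => if_pos ht.2)
    have hB : IsGeodesicOn g (fun t => if t < b then γ t else σ1 t)
        (Ioo (max a (t1 - ε)) (t1 + ε)) := by
      refine (hσ1g.mono (Ioo_subset_Ioo (le_max_right _ _) le_rfl)).congr isOpen_Ioo ?_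
      intro t ht
      by_cases hb : t < b
      · simp only [if_pos hb]
        exact hover ⟨ht.1, hb⟩
      · simp only [if_neg hb]
    refine (hA.union hB isOpen_Ioo isOpen_Ioo).mono ?_
    intro t ht
    by_cases hb : t < b
    · exact Or.inl ⟨ht.1, hb⟩
    · refine Or.inr ⟨?_, ht.2⟩
      have : max a (t1 - ε) < b := max_lt (h1.trans h2) (by linarith only [h2, h3])
      linarith only [hb, this]
  · intro t ht
    exact if_pos ht.2

theorem ext_both (hE : Ext g) {γ : ℝ → M} {T : ℝ} (hT : 0 < T) {m : M} {v : V}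
    (hv : g.ip m v v ≤ 1) (hγ : IsGeodesicOn g γ (Ioo (-T) T)) (h0 : StartsAt γ m v) :
    ∃ T' > T, ∃ γ' : ℝ → M, IsGeodesicOn g γ' (Ioo (-T') T') ∧ StartsAt γ' m v := by
  have hspd : ∀ (σ : ℝ → M) (a b : ℝ), a < 0 → 0 < b → IsGeodesicOn g σ (Ioo a b) →
      ∀ w : V, g.ip m w w ≤ 1 → StartsAt σ m w → ∀ t ∈ Ioo a b, g.sp σ t ≤ 1 := by
    intro σ a b ha hb hσ w hw hσ0 t ht
    rw [hσ.sp_const isOpen_Ioo isPreconnected_Ioo ht (y := 0) ⟨ha, hb⟩]
    rw [Metric.sp, hσ0.1, hσ0.2.deriv]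
    exact hw
  obtain ⟨δ₁, hδ₁, γ₁, h1, h1e⟩ := hE γ _ _ (by linarith only [hT]) hγ
    (hspd γ (-T) T (by linarith only [hT]) hT hγ v hv h0)
  have h10 : StartsAt γ₁ m v := h0.congr (by
    filter_upwards [isOpen_Ioo.mem_nhds (⟨by linarith, hT⟩ : (0 : ℝ) ∈ Ioo (-T) T)] with t ht
    exact h1e ht)
  have hrev : ∀ (σ : ℝ → M) (a b : ℝ), IsGeodesicOn g σ (Ioo a b) →
      IsGeodesicOn g (fun t => σ ((-1) * t + 0)) (Ioo (-b) (-a)) := by
    intro σ a b hσ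
    refine (hσ.comp_affine isOpen_Ioo (-1) 0).mono ?_
    intro t ht
    simp only [mem_ofPred_eq, mem_Ioo] at ht ⊢
    constructor <;> linarith only [ht]
  have hrev0 : ∀ (σ : ℝ → M) (w : V), StartsAt σ m w →
      StartsAt (fun t => σ ((-1) * t + 0)) m (-w) := by
    intro σ w hσ
    refine ⟨by simpa using hσ.1, ?_⟩
    have hh : HasDerivAt (fun t : ℝ => (-1) * t + 0) (-1) 0 := by
      simpa only [neg_mul, one_mul, add_zero, id_eq, mul_one] using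
        ((hasDerivAt_id (0 : ℝ)).const_mul (-1 : ℝ)).add_const (0 : ℝ)
    have h4 : HasDerivAt (cc (E := V) σ m) w ((-1) * 0 + 0) := by simpa using hσ.2
    have := HasDerivAt.scomp (h := fun t : ℝ => (-1) * t + 0) (0 : ℝ) h4 hh
    rw [neg_one_smul] at this
    exact this
  have h2 := hrev γ₁ _ _ h1
  have h20 := hrev0 γ₁ v h10
  rw [neg_neg] at h2
  have hv' : g.ip m (-v) (-v) ≤ 1 := by simpa only [map_neg, neg_apply, neg_neg] using hv
  obtain ⟨δ₂, hδ₂, γ₂, h3, h3e⟩ := hE _ (-(T + δ₁)) T (by linarith only [hδ₁, hT]) h2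
    (hspd _ _ _ (by linarith) hT h2 (-v) hv' h20)
  have h30 : StartsAt γ₂ m (-v) := h20.congr (by
    filter_upwards [isOpen_Ioo.mem_nhds
      (⟨by linarith, hT⟩ : (0 : ℝ) ∈ Ioo (-(T + δ₁)) T)] with t ht
    exact h3e ht)
  have h4 := hrev γ₂ _ _ h3
  have h40 := hrev0 γ₂ (-v) h30
  rw [neg_neg] at h4 h40
  have h5 := min_le_left δ₁ δ₂
  have h6 := min_le_right δ₁ δ₂
  have h7 := lt_min hδ₁ hδ₂
  exact ⟨T + min δ₁ δ₂, by linarith, _,
    h4.mono (Ioo_subset_Ioo (by linarith) (by linarith)), h40⟩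

theorem slow (hE : Ext g) (m : M) (v : V) (hv : g.ip m v v ≤ 1) :
    ∃ γ : ℝ → M, IsGeodesic g γ ∧ StartsAt γ m v := by
  classical
  set S : Set ℝ := {T | 0 < T ∧ ∃ γ : ℝ → M, IsGeodesicOn g γ (Ioo (-T) T) ∧ StartsAt γ m v}
    with hS
  have hne : S.Nonempty := by
    obtain ⟨ε, hε, N, hN, h⟩ := exists_local g m
    obtain ⟨γ, h1, h2, h3⟩ := h m (mem_of_mem_nhds hN) v hv
    exact ⟨ε, hε, γ, h1, h2, h3⟩
  choose Γ hΓ hΓ0 using fun T : S => T.2.2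
  have hmm : m ∈ (chartAt V m).source := mem_chart_source V m
  have hagree : ∀ A B : S, ∀ t, |t| < A.1 → |t| < B.1 → Γ A t = Γ B t := by
    intro A B t hA hB
    have h0 := lt_min A.2.1 B.2.1
    have h1 := min_le_left A.1 B.1
    have h2 := min_le_right A.1 B.1
    refine ((hΓ A).mono (s' := Ioo (-(min A.1 B.1)) (min A.1 B.1))
      (Ioo_subset_Ioo (by linarith) h1)).eqOn_of
      ((hΓ B).mono (Ioo_subset_Ioo (by linarith) h2)) isOpen_Ioo
      isPreconnected_Ioo (t := 0) ⟨by linarith, h0⟩ ((hΓ0 A).1.trans (hΓ0 B).1.symm) (a := m)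
      ?_ ?_ (abs_lt.1 (lt_min hA hB))
    · rw [(hΓ0 A).1]; exact hmm
    · rw [(hΓ0 A).2.deriv, (hΓ0 B).2.deriv]
  set γ : ℝ → M := fun t => if h : ∃ A : S, |t| < A.1 then Γ h.choose t else m with hγ
  have hloc : ∀ A : S, EqOn γ (Γ A) (Ioo (-A.1) A.1) := by
    intro A t ht
    have h : ∃ A : S, |t| < A.1 := ⟨A, abs_lt.2 ht⟩
    simp only [hγ, dif_pos h]
    exact hagree _ _ t h.choose_spec (abs_lt.2 ht)
  have hgeo : IsGeodesicOn g γ {t | ∃ A : S, |t| < A.1} :=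
    isGeodesicOn_of_forall fun t ⟨A, hA⟩ => ⟨Ioo (-A.1) A.1, isOpen_Ioo, abs_lt.1 hA,
      (hΓ A).congr isOpen_Ioo (hloc A)⟩
  have hst : StartsAt γ m v := by
    obtain ⟨T, hT⟩ := hne
    refine (hΓ0 ⟨T, hT⟩).congr ?_
    filter_upwards [isOpen_Ioo.mem_nhds (⟨by linarith [hT.1], hT.1⟩ : (0 : ℝ) ∈ Ioo (-T) T)]
      with t ht
    exact hloc ⟨T, hT⟩ ht
  refine ⟨γ, hgeo.mono fun t _ => ?_, hst⟩
  by_contra hn
  have hb : BddAbove S := ⟨|t|, fun T hT => not_lt.1 fun h => hn ⟨⟨T, hT⟩, h⟩⟩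
  have hs0 : 0 < sSup S := by
    obtain ⟨T, hT⟩ := hne
    exact hT.1.trans_le (le_csSup hb hT)
  obtain ⟨T', hT', γ', h1, h2⟩ := ext_both hE hs0 hv (hgeo.mono fun x hx => by
    obtain ⟨T, hT, h⟩ := exists_lt_of_lt_csSup hne (abs_lt.2 hx)
    exact ⟨⟨T, hT⟩, h⟩) hst
  exact not_lt.2 (le_csSup hb (⟨hs0.trans hT', γ', h1, h2⟩ : T' ∈ S)) hT'

theorem all (hE : Ext g) (m : M) (v : V) : ∃ γ : ℝ → M, IsGeodesic g γ ∧ StartsAt γ m v := by
  have hpos : 0 ≤ g.ip m v v := by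
    rcases eq_or_ne v 0 with rfl | hv
    · simp
    · exact (g.pos m _ ((chartAt V m).map_source (mem_chart_source V m)) v hv).le
  set k : ℝ := g.ip m v v + 1 with hk
  have hk0 : 0 < k := by linarith
  obtain ⟨γ, h1, h2⟩ := slow hE m (k⁻¹ • v) (by
    simp only [map_smul, smul_apply, smul_eq_mul]
    rw [← mul_assoc, ← mul_inv, inv_mul_le_iff₀ (by positivity)]
    nlinarith)
  have h3 := h2.scale k
  rw [smul_inv_smul₀ hk0.ne'] at h3
  exact ⟨_, h1.scale k, h3⟩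

end General

variable {n : ℕ} {M : Type} [TopologicalSpace M] [T2Space M] [ChartedSpace (E n) M]
  [IsManifold 𝓘(ℝ, E n) ∞ M]

theorem limit {g : RMetric (E n) M} (hc : IsComplete g) {γ : ℝ → M} {a b : ℝ} (hab : a < b)
    (hγ : IsGeodesicOn (toMetric g) γ (Ioo a b))
    (hsp : ∀ t ∈ Ioo a b, (toMetric g).sp γ t ≤ 1) : ∃ q, Tendsto γ (𝓝[<] b) (𝓝 q) := by
  have key : ∀ ε : ℝ≥0∞, 0 < ε → ∃ s ∈ map γ (𝓝[<] b), ∀ x ∈ s, ∀ y ∈ s, rdist g x y < ε := by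
    intro ε hε
    obtain ⟨r, hr, hrε⟩ : ∃ r : ℝ, 0 < r ∧ ENNReal.ofReal r < ε := by
      obtain ⟨r, -, h1, h2⟩ := ENNReal.lt_iff_exists_real_btwn.1 hε
      exact ⟨r, ENNReal.ofReal_pos.1 h1, h2⟩
    refine ⟨γ '' Ioo (max a (b - r)) b, image_mem_map (Ioo_mem_nhdsLT
      (max_lt hab (by linarith))), ?_⟩
    rintro _ ⟨s, hs, rfl⟩ _ ⟨t, ht, rfl⟩
    have hs1 := (le_max_left _ _).trans_lt hs.1
    have ht1 := (le_max_left _ _).trans_lt ht.1
    have hs2 := (le_max_right _ _).trans_lt hs.1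
    have ht2 := (le_max_right _ _).trans_lt ht.1
    refine lt_of_le_of_lt ((geo_lip hγ zero_le_one (by simpa using hsp) ⟨hs1, hs.2⟩
      ⟨ht1, ht.2⟩).trans (ENNReal.ofReal_le_ofReal ?_)) hrε
    rw [one_mul, abs_le]
    constructor <;> linarith [hs.2, ht.2]
  letI := riemSpace g
  haveI : CompleteSpace M := hc
  have h1 : Cauchy (map γ (𝓝[<] b)) := EMetric.cauchy_iff.2 ⟨NeBot.ne inferInstance, key⟩
  exact CompleteSpace.complete h1

theorem ext_of_complete {g : RMetric (E n) M} (hc : IsComplete g) : Ext (toMetric g) := by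
  intro γ a b hab hγ hsp
  obtain ⟨q, hq⟩ := limit hc hab hγ hsp
  obtain ⟨ε, hε, N, hN, h⟩ := exists_local (toMetric g) q
  have h1 : ∀ᶠ t in 𝓝[<] b, γ t ∈ N ∧ t ∈ Ioo (max a (b - ε / 2)) b :=
    (hq.eventually hN).and (Ioo_mem_nhdsLT (max_lt hab (by linarith)))
  obtain ⟨t, htN, ht⟩ := h1.exists
  have ht1 := (le_max_left _ _).trans_lt ht.1
  have ht2 := (le_max_right _ _).trans_lt ht.1
  obtain ⟨σ, hσ, hσ0⟩ := h (γ t) htN _ (hsp t ⟨ht1, ht.2⟩)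
  obtain ⟨γ', h2, h3⟩ := glue hγ ht1 ht.2 (by linarith) hσ hσ0
  exact ⟨ε / 2, half_pos hε, γ', h2.mono (Ioo_subset_Ioo le_rfl (by linarith)), h3⟩

omit [T2Space M] in
theorem isGeo_of_isGeodesic {g : RMetric (E n) M} {γ : ℝ → M} (hγ : IsGeodesic (toMetric g) γ) :
    IsGeo g γ := by
  refine ⟨hγ.continuous, fun a t ha => ?_⟩
  obtain ⟨e1, e2, e3⟩ := hγ.eqn a t (mem_univ _) ha
  have hcc : curveIn (E := E n) γ a = cc γ a := rfl
  rw [hcc]
  refine ⟨e1, e2, ?_⟩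
  have hm : cc (E := E n) γ a t ∈ (chartAt (E n) a).target := (chartAt (E n) a).map_source ha
  rw [covDer_eq (F := coefIn g a) (G := coefL g a) ((toMetric g).isMetricOn a)
    (fun u _ v w => rfl) hm]
  exact IsGeodesicOn.covD_deriv hγ (mem_univ t) ha

/-- **HR** -/
theorem hr (g : RMetric (E n) M) : HR g := by
  intro hc p v
  obtain ⟨γ, hγ, h0, h1⟩ := all (ext_of_complete hc) p (v : E n)
  refine ⟨γ, isGeo_of_isGeodesic hγ, h0, ?_⟩
  subst h0
  exact (mfderiv_cc hγ.continuous.continuousAt h1.differentiableAt).trans h1.deriv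

end Vale.Agent.P219W88
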