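import Vale.Agent.P219W.Rows2

/-!
# P219W: an isometric copy of a geodesic ball is a geodesic ball
-/

open scoped Manifold ContDiff ENNReal Topology RealInnerProductSpace
open Set Filter

set_option linter.all false

noncomputable section

namespace Vale.Agent.P219W88

open Vale.Agent.P255 (RMetric)
open Vale.Agent.P219.Co (E)
open Vale.Agent.P219.H381 (pb)
open Vale.Agent.P219W

variable {n : ℕ} {M : Type} [TopologicalSpace M] [T2Space M] [ChartedSpace (E n) M]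
  [IsManifold 𝓘(ℝ, E n) ∞ M]
  {N : Type} [TopologicalSpace N] [T2Space N] [ChartedSpace (E n) N] [IsManifold 𝓘(ℝ, E n) ∞ N]

omit [T2Space M] in
theorem spd_congr (g : RMetric (E n) M) {γ γ' : ℝ → M} {t : ℝ} (h : γ =ᶠ[𝓝 t] γ') :
    spd g γ t = spd g γ' t := by
  have h1 : ∀ a b : M, a = b → ∀ v w : E n, v = w → g.inner a v v = g.inner b w w := by
    rintro a b rfl v w rfl
    rfl
  exact h1 _ _ h.eq_of_nhds _ _ (congrArg (fun L : ℝ →L[ℝ] E n => L 1) h.mfderiv_eq)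

omit [T2Space M] [T2Space N] in
theorem spd_iso {h : RMetric (E n) N} {g : RMetric (E n) M} {φ : N → M} {c : ℝ → N} {t : ℝ}
    (hφ : MDifferentiableAt 𝓘(ℝ, E n) 𝓘(ℝ, E n) φ (c t))
    (hc : MDifferentiableAt 𝓘(ℝ, ℝ) 𝓘(ℝ, E n) c t)
    (hi : ∀ v w : TangentSpace 𝓘(ℝ, E n) (c t), g.inner (φ (c t))
      (mfderiv 𝓘(ℝ, E n) 𝓘(ℝ, E n) φ (c t) v) (mfderiv 𝓘(ℝ, E n) 𝓘(ℝ, E n) φ (c t) w) =
        h.inner (c t) v w) :
    spd g (fun s => φ (c s)) t = spd h c t := by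
  have h3 := mfderiv_comp t hφ hc
  have h4 : mfderiv 𝓘(ℝ, ℝ) 𝓘(ℝ, E n) (fun s => φ (c s)) t (1 : ℝ) =
      mfderiv 𝓘(ℝ, E n) 𝓘(ℝ, E n) φ (c t) (mfderiv 𝓘(ℝ, ℝ) 𝓘(ℝ, E n) c t (1 : ℝ)) :=
    congrArg (fun L => L (1 : ℝ)) h3
  unfold spd
  rw [h4]
  exact hi _ _

omit [T2Space M] in
theorem ray_smooth (Ψ : E n ≃ₘ^∞⟮𝓘(ℝ, E n), 𝓘(ℝ, E n)⟯ M) (x : E n) :
    ContMDiff 𝓘(ℝ, ℝ) 𝓘(ℝ, E n) 1 (fun s : ℝ => Ψ (s • x)) := by
  refine (Ψ.contMDiff.of_le (by simp)).comp (f := fun s : ℝ => s • x) ?_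
  rw [contMDiff_iff_contDiff]
  fun_prop

omit [T2Space M] in
theorem ray_spd {g : RMetric (E n) M} {p : M} {Ψ : E n ≃ₘ^∞⟮𝓘(ℝ, E n), 𝓘(ℝ, E n)⟯ M}
    (h : IsNormal g p Ψ) (x : E n) {t : ℝ} (ht : t ≠ 0) :
    spd g (fun s : ℝ => Ψ (s • x)) t = ‖x‖ ^ 2 := by
  have hd : HasDerivAt (fun s : ℝ => s • x) x t := by
    simpa using (hasDerivAt_id t).smul_const x
  rw [spd_comp g Ψ hd]
  have h4 := h.gauss (t • x) x
  rw [map_smul, inner_smul_left] at h4
  have h5 : pb g Ψ (t • x) x x = ⟪x, x⟫ := mul_left_cancel₀ ht h4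
  rw [h5, real_inner_self_eq_norm_sq]

/-- **TWO3** -/
theorem two3 (h : RMetric (E n) N) (g : RMetric (E n) M) : TWO3 h g := by
  rintro hN hM o r Ω hr hΩ ⟨φ, ψ, hφ, hψ, mφ, mψ, hinv, hiso⟩
  obtain ⟨Φ, hΦ⟩ := hN o
  obtain ⟨Ψ, hΨ⟩ := hM (φ o)
  have hB : IsOpen (gball h o r) := by
    rw [hΦ.gball]
    exact Φ.toHomeomorph.isOpenMap _ Metric.isOpen_ball
  have hmem : ∀ z : E n, ‖z‖ < r → Φ z ∈ gball h o r := fun z hz => by
    rw [hΦ.gball]
    exact ⟨z, mem_ball_zero_iff.2 hz, rfl⟩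
  have ho : o ∈ gball h o r := by
    have := hmem 0 (by simpa using hr)
    rwa [hΦ.zero] at this
  have dφ : ∀ y ∈ gball h o r, MDifferentiableAt 𝓘(ℝ, E n) 𝓘(ℝ, E n) φ y := fun y hy =>
    (hφ.contMDiffAt (hB.mem_nhds hy)).mdifferentiableAt (by simp)
  refine ⟨φ o, Subset.antisymm (fun x hx => ?_) fun q hq => ?_⟩
  · have hy := mψ hx
    rw [hΦ.gball] at hy
    obtain ⟨z, hz, hzx⟩ := hy
    rw [mem_ball_zero_iff] at hz
    have hin : ∀ s ∈ Icc (0 : ℝ) 1, Φ (s • z) ∈ gball h o r := fun s hs => hmem _ (by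
      rw [norm_smul, Real.norm_of_nonneg hs.1]
      exact (mul_le_of_le_one_left (norm_nonneg _) hs.2).trans_lt hz)
    have h1 := rdist_le_of_speed g (γ := fun s : ℝ => φ (Φ (s • z))) (a := 0) (b := 1)
      ((hφ.of_le (by simp)).comp (ray_smooth Φ z).contMDiffOn hin) zero_le_one (norm_nonneg z)
      fun t ht => by
        have h2 := hin t (Ioo_subset_Icc_self ht)
        rw [spd_iso (h := h) (c := fun s : ℝ => Φ (s • z)) (dφ _ h2)
          ((ray_smooth Φ z t).mdifferentiableAt one_ne_zero) (hiso _ h2), ray_spd hΦ z ht.1.ne']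
    simp only [zero_smul, one_smul, sub_zero, mul_one] at h1
    rw [hΦ.zero, hzx, hinv.2 hx] at h1
    exact h1.trans_lt ((ENNReal.ofReal_lt_ofReal_iff hr).2 hz)
  · rw [hΨ.gball] at hq
    obtain ⟨x, hx, rfl⟩ := hq
    rw [mem_ball_zero_iff] at hx
    set c : ℝ → M := fun s => Ψ (s • x) with hc
    have hcs := ray_smooth Ψ x
    have hc0 : c 0 = φ o := by simp only [hc, zero_smul, hΨ.zero]
    set K : Set N := Φ '' Metric.closedBall 0 ‖x‖ with hK
    have hKB : K ⊆ gball h o r := by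
      rintro _ ⟨z, hz, rfl⟩
      exact hmem z ((mem_closedBall_zero_iff.1 hz).trans_lt hx)
    have hKc : IsCompact (φ '' K) :=
      ((isCompact_closedBall _ _).image Φ.continuous).image_of_continuousOn
        (hφ.continuousOn.mono hKB)
    have hKΩ : φ '' K ⊆ Ω := by
      rintro _ ⟨y, hy, rfl⟩
      exact mφ (hKB hy)
    have step : ∀ u ∈ Icc (0 : ℝ) 1, (∀ s ∈ Icc 0 u, c s ∈ Ω) → c u ∈ φ '' K := by
      intro u hu hin
      have h1 := rdist_le_of_speed h (γ := fun s : ℝ => ψ (c s)) (a := 0) (b := u)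
        ((hψ.of_le (by simp)).comp hcs.contMDiffOn hin) hu.1 (norm_nonneg x) fun t ht => by
          have h2 := hin t (Ioo_subset_Icc_self ht)
          have h3 : MDifferentiableAt 𝓘(ℝ, ℝ) 𝓘(ℝ, E n) (fun s : ℝ => ψ (c s)) t :=
            ((hψ.contMDiffAt (hΩ.mem_nhds h2)).mdifferentiableAt (by simp)).comp t
              ((hcs t).mdifferentiableAt one_ne_zero)
          have h4 := spd_iso (h := h) (g := g) (c := fun s : ℝ => ψ (c s)) (dφ _ (mψ h2)) h3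
            (hiso _ (mψ h2))
          have h5 : (fun s : ℝ => φ (ψ (c s))) =ᶠ[𝓝 t] c := by
            filter_upwards [hcs.continuous.continuousAt.eventually (hΩ.mem_nhds h2)] with s hs
            exact hinv.2 hs
          rw [← h4, spd_congr g h5, ray_spd hΨ x ht.1.ne']
      have h6 := hin u ⟨hu.1, le_rfl⟩
      simp only [sub_zero] at h1
      rw [hc0, hinv.1 ho] at h1
      obtain ⟨z, hz⟩ := Φ.surjective (ψ (c u))
      have hz' : Φ z = ψ (c u) := hz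
      rw [← hz', hΦ.rdist_zero, ENNReal.ofReal_le_ofReal_iff
        (mul_nonneg (norm_nonneg _) hu.1)] at h1
      refine ⟨ψ (c u), ⟨z, mem_closedBall_zero_iff.2 (h1.trans ?_), hz'⟩, hinv.2 h6⟩
      exact mul_le_of_le_one_right (norm_nonneg _) hu.2
    have hall : Icc (0 : ℝ) 1 ⊆ c ⁻¹' (φ '' K) := by
      refine IsClosed.Icc_subset_of_forall_mem_nhdsGT_of_Icc_subset
        ((hKc.isClosed.preimage hcs.continuous).inter isClosed_Icc)
        (step 0 ⟨le_rfl, zero_le_one⟩ fun s hs => ?_) fun t ht hsub => ?_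
      · rw [le_antisymm hs.2 hs.1, hc0]
        exact mφ ho
      · have h1 : ∀ᶠ s in 𝓝 t, c s ∈ Ω :=
          hcs.continuous.continuousAt.eventually (hΩ.mem_nhds (hKΩ (hsub ⟨ht.1, le_rfl⟩)))
        obtain ⟨ε, hε, h2⟩ := Metric.eventually_nhds_iff.1 h1
        filter_upwards [Ioo_mem_nhdsGT (lt_min ht.2 (lt_add_of_pos_right t hε))] with u hu
        have hu1 := hu.2.trans_le (min_le_left _ _)
        have hu2 := hu.2.trans_le (min_le_right _ _)
        refine step u ⟨ht.1.trans hu.1.le, hu1.le⟩ fun s hs => ?_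
        rcases le_total s t with h3 | h3
        · exact hKΩ (hsub ⟨hs.1, h3⟩)
        · refine h2 ?_
          rw [Real.dist_eq, abs_of_nonneg (sub_nonneg.2 h3)]
          linarith [hs.2]
    have h7 := hKΩ (hall ⟨zero_le_one, le_rfl⟩)
    simpa only [hc, one_smul] using h7

end Vale.Agent.P219W88
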